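import Vale.Agent.P011.H167.LfC
import Vale.Agent.P011.H961.SetG
import Vale.Agent.P011.H961.R5TwoLoc

/-!
# Rank one hermitian forms over function fields in characteristic two: the global element

The choice of a global element approximating given local ones whose inverse is integral outside a
finite set of places, in characteristic two.
-/

open Module Polynomial

set_option linter.unusedSectionVars false

namespace Vale.Agent.P011.H6.L2

open Vale.Agent.P011.H738 Vale.Agent.P011.H271 Vale.Agent.P011.H182 Vale.Agent.P011.H305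
  Vale.Agent.P011.H158.N4 Vale.Agent.P011.H961 Vale.Agent.P011.H961.C2

section base

variable {k K D : Type} [Field k] [Field K] [StarRing K]
    [DivisionRing D] [StarRing D] [Algebra k K] [Algebra k D] [Algebra K D] [IsScalarTower k K D]
    {κ : K} {ν : k} {v : Place k}

theorem two_up (h2 : (2 : k) = 0) : (2 : K) = 0 := by
  rw [← map_ofNat (algebraMap k K) 2, h2, map_zero]

/-- Products of integral elements are integral. -/
theorem ki_mul (hν : κ * κ + κ = algebraMap k K ν) (hv : v.abv ν ≤ 1) {e e' : K}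
    (h : KI v κ e) (h' : KI v κ e') : KI v κ (e * e') := by
  obtain ⟨a, b, rfl, ha, hb⟩ := h
  obtain ⟨a', b', rfl, ha', hb'⟩ := h'
  refine ⟨a * a' + b * b' * ν, a * b' + b * a' + -(b * b'), ?_, ?_, ?_⟩
  · simp only [map_add, map_mul, map_neg]
    rw [← hν]
    ring
  · exact abv_add_le (abv_mul_le ha ha') (abv_mul_le (abv_mul_le hb hb') hv)
  · exact abv_add_le (abv_add_le (abv_mul_le ha hb') (abv_mul_le hb ha'))
      (by rw [AbsoluteValue.map_neg]; exact abv_mul_le hb hb')

/-- Products of integral elements with small elements are small. -/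
theorem ks_mul (hν : κ * κ + κ = algebraMap k K ν) (hv : v.abv ν ≤ 1) {e e' : K}
    (h : KI v κ e) (h' : KS v κ e') : KS v κ (e * e') := by
  obtain ⟨a, b, rfl, ha, hb⟩ := h
  obtain ⟨a', b', rfl, ha', hb'⟩ := h'
  refine ⟨a * a' + b * b' * ν, a * b' + b * a' + -(b * b'), ?_, ?_, ?_⟩
  · simp only [map_add, map_mul, map_neg]
    rw [← hν]
    ring
  · exact abv_add_lt (abv_mul_lt ha ha') (abv_mul_lt' (abv_mul_lt hb hb') hv)
  · exact abv_add_lt (abv_add_lt (abv_mul_lt ha hb') (abv_mul_lt hb ha'))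
      (by rw [AbsoluteValue.map_neg]; exact abv_mul_lt hb hb')

theorem star_coord (hS : SetG k K D) (hκ : star κ = κ + 1) (a b : k) :
    star (algebraMap k K a + algebraMap k K b * κ) =
      algebraMap k K (a + b) + algebraMap k K b * κ := by
  rw [star_add, star_mul', hS.star_algebraMap, hS.star_algebraMap, hκ, map_add]
  ring

theorem ki_star (hS : SetG k K D) (hκ : star κ = κ + 1) {e : K} (h : KI v κ e) :
    KI v κ (star e) := by
  obtain ⟨a, b, rfl, ha, hb⟩ := h
  exact ⟨a + b, b, star_coord hS hκ a b, abv_add_le ha hb, hb⟩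

theorem ks_star (hS : SetG k K D) (hκ : star κ = κ + 1) {e : K} (h : KS v κ e) :
    KS v κ (star e) := by
  obtain ⟨a, b, rfl, ha, hb⟩ := h
  exact ⟨a + b, b, star_coord hS hκ a b, abv_add_lt ha hb, hb⟩

/-- Coordinates are unique. -/
theorem coord_unique (hS : SetG k K D) (hκ : star κ = κ + 1) {a b a' b' : k}
    (h : algebraMap k K a + algebraMap k K b * κ = algebraMap k K a' + algebraMap k K b' * κ) :
    a = a' ∧ b = b' := by
  have h1 := congrArg star h
  rw [star_coord hS hκ, star_coord hS hκ, map_add, map_add] at h1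
  have h3 : algebraMap k K b = algebraMap k K b' := by linear_combination h1 - h
  have h4 : algebraMap k K a = algebraMap k K a' := by linear_combination h - κ * h3
  exact ⟨(algebraMap k K).injective h4, (algebraMap k K).injective h3⟩

theorem not_small_one (hS : SetG k K D) (hκ : star κ = κ + 1) : ¬ KS v κ (1 : K) := by
  rintro ⟨a, b, h1, ha, -⟩
  have h3 : algebraMap k K 1 + algebraMap k K 0 * κ =
      algebraMap k K a + algebraMap k K b * κ := by
    rw [map_zero, zero_mul, add_zero, map_one, h1]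
  rw [← (coord_unique hS hκ h3).1, map_one] at ha
  exact lt_irrefl _ ha

/-- At a nonsplit place an element of small norm is small. -/
theorem small_of_nrm (h2 : (2 : k) = 0) (hv : v.abv ν ≤ 1)
    (hns : ¬ Spl2 v ν) {a b : k} (ha : v.abv a ≤ 1) (hb : v.abv b ≤ 1)
    (hn : v.abv (a ^ 2 + a * b + ν * b ^ 2) < 1) : v.abv a < 1 ∧ v.abv b < 1 := by
  have hb1 : v.abv b < 1 := by
    by_contra hcon
    have hb1 : v.abv b = 1 := le_antisymm hb (not_lt.mp hcon)
    have hb0 : b ≠ 0 := by
      rintro rfl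
      rw [map_zero] at hb1
      exact zero_ne_one hb1
    obtain ⟨y, hy⟩ := exists_as h2 (ω := v)
      (t := algebraMap k v.comp ((a / b) ^ 2 + a / b + ν)) (by
      rw [norm_alg]
      have e : (a / b) ^ 2 + a / b + ν = (a ^ 2 + a * b + ν * b ^ 2) / b ^ 2 := by
        field_simp
      rw [e, map_div₀, map_pow, hb1, one_pow, div_one]
      exact hn)
    apply hns
    refine ⟨algebraMap k v.comp (a / b) + y, ?_⟩
    have h3 : (2 : v.comp) = 0 := by rw [← map_ofNat (algebraMap k v.comp) 2, h2, map_zero]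
    rw [map_add, map_add, map_pow] at hy
    linear_combination hy + (algebraMap k v.comp (a / b) ^ 2 + algebraMap k v.comp (a / b) +
      algebraMap k v.comp (a / b) * y) * h3
  refine ⟨?_, hb1⟩
  have h3 : v.abv (a ^ 2) < 1 := by
    have e : a ^ 2 = (a ^ 2 + a * b + ν * b ^ 2) + -(b * (a + ν * b)) := by ring
    rw [e]
    refine abv_add_lt hn ?_
    rw [AbsoluteValue.map_neg]
    exact abv_mul_lt' hb1 (abv_add_le ha (abv_mul_le hv hb))
  rw [map_pow] at h3
  by_contra hcon
  rw [not_lt] at hcon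
  exact absurd (one_le_pow₀ hcon : 1 ≤ v.abv a ^ 2) (not_le.mpr h3)

/-- Integral and not small: a unit. -/
theorem unit_of_not_ks (hS : SetG k K D) (h2 : (2 : k) = 0) (hκ : star κ = κ + 1)
    (hν : κ * κ + κ = algebraMap k K ν) (hv : v.abv ν ≤ 1) (hns : ¬ Spl2 v ν) {e : K}
    (he : KI v κ e) (hs : ¬ KS v κ e) :
    ∃ c : k, star e * e = algebraMap k K c ∧ v.abv c = 1 := by
  have h2K := two_up (K := K) h2
  obtain ⟨a, b, rfl, ha, hb⟩ := he
  refine ⟨a ^ 2 + a * b + ν * b ^ 2, ?_, ?_⟩
  · rw [star_coord hS hκ]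
    simp only [map_add, map_mul, map_pow]
    rw [← hν]
    linear_combination (algebraMap k K a * algebraMap k K b * κ) * h2K
  · apply le_antisymm
    · exact abv_add_le (abv_add_le (abv_pow_le ha 2) (abv_mul_le ha hb))
        (abv_mul_le hv (abv_pow_le hb 2))
    · by_contra hcon
      obtain ⟨h3, h4⟩ := small_of_nrm h2 hv hns ha hb (not_le.mp hcon)
      exact hs ⟨a, b, rfl, h3, h4⟩

/-- The elements of `K` with integral coordinates. -/
def KRG (hν : κ * κ + κ = algebraMap k K ν) (v : Place k) (hv : v.abv ν ≤ 1) : Subring K where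
  carrier := {c | KI v κ c}
  mul_mem' := fun h h' => ki_mul hν hv h h'
  one_mem' := by
    have := ki_of (K := K) (s := κ) (v := v) (a := 1) (by rw [map_one])
    rwa [map_one] at this
  add_mem' := fun h h' => KI.add h h'
  zero_mem' := by
    have := ki_of (K := K) (s := κ) (v := v) (a := 0) (by rw [map_zero]; exact zero_le_one)
    rwa [map_zero] at this
  neg_mem' := fun h => H167.Lf.KI.neg h

variable {N : ℕ} {B : Basis (Fin N) k D}

theorem ig_aevalG {hν : κ * κ + κ = algebraMap k K ν} {hv : v.abv ν ≤ 1}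
    (hB : Gd B v.abv) (hsI : Ig B v.abv (algebraMap K D κ)) {a : D} (ha : Ig B v.abv a)
    (p : (KRG hν v hv)[X]) :
    Ig B v.abv (Polynomial.aeval a (p.map (KRG hν v hv).subtype)) := by
  rw [Polynomial.aeval_eq_sum_range]
  refine Gd.sum hB.na _ fun i _ => ?_
  rw [Polynomial.coeff_map, Algebra.smul_def]
  exact hB.mul' (H167.Lf.ig_of_ki hB hsI (p.coeff i).2) (H167.Lf.ig_pow hB ha i)

/-- The key step: the inverse of `a + μ` is integral. -/
theorem inv_integralG (hS : SetG k K D) (h2 : (2 : k) = 0) (hκ : star κ = κ + 1)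
    (hν : κ * κ + κ = algebraMap k K ν) (hv : v.abv ν ≤ 1) (hns : ¬ Spl2 v ν) (hB : Gd B v.abv)
    (hsI : Ig B v.abv (algebraMap K D κ)) {a : D} (ha : Ig B v.abv a) {m A A' : K[X]}
    (hroot : aeval a m = 0) (hrel : A * m + A' * m.map (starRingEnd K) = 1)
    (hmc : ∀ i, KI v κ (m.coeff i)) (hAc : ∀ i, KI v κ (A.coeff i))
    (hAc' : ∀ i, KI v κ (A'.coeff i)) {μ : k} (hμ : v.abv μ ≤ 1) :
    Ig B v.abv (a + algebraMap k D μ)⁻¹ := by
  -- evaluation of integral polynomials
  have hneg : -algebraMap k K μ ∈ KRG hν v hv := Subring.neg_mem _ (ki_of hμ)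
  have heval : ∀ p : K[X], (∀ i, KI v κ (p.coeff i)) →
      KI v κ (p.eval (-algebraMap k K μ)) := by
    intro p hp
    have : p.eval (-algebraMap k K μ) ∈ KRG hν v hv := by
      rw [Polynomial.eval_eq_sum_range]
      exact Subring.sum_mem _ fun i _ => Subring.mul_mem _ (hp i) (Subring.pow_mem _ hneg i)
    exact this
  obtain ⟨c, hcd⟩ : ∃ c : K, c = m.eval (-algebraMap k K μ) := ⟨_, rfl⟩
  have hcI : KI v κ c := hcd ▸ heval m hmc
  have hstarμ : star (-algebraMap k K μ) = -algebraMap k K μ := by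
    rw [star_neg, hS.star_algebraMap]
  have hcbar : (m.map (starRingEnd K)).eval (-algebraMap k K μ) = star c := by
    have e : (-algebraMap k K μ) = starRingEnd K (-algebraMap k K μ) := hstarμ.symm
    conv_lhs => rw [e]
    rw [Polynomial.eval_map_apply, ← hcd]
    rfl
  -- the value is not small
  have hcn : ¬ KS v κ c := by
    intro hks
    apply not_small_one hS hκ (v := v)
    have e := congrArg (fun f => Polynomial.eval (-algebraMap k K μ) f) hrel
    simp only [Polynomial.eval_add, Polynomial.eval_mul, Polynomial.eval_one] at e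
    rw [← hcd, hcbar] at e
    rw [← e]
    exact (ks_mul hν hv (heval A hAc) hks).add (ks_mul hν hv (heval A' hAc') (ks_star hS hκ hks))
  obtain ⟨u, hu, hu1⟩ := unit_of_not_ks hS h2 hκ hν hv hns hcI hcn
  have hu0 : u ≠ 0 := by
    rintro rfl
    rw [map_zero] at hu1
    exact zero_ne_one hu1
  have huK : algebraMap k K u ≠ 0 := (_root_.map_ne_zero _).mpr hu0
  have hc0 : c ≠ 0 := by
    rintro rfl
    rw [mul_zero] at hu
    exact huK hu.symm
  have hcinv : KI v κ c⁻¹ := by
    have e : c⁻¹ = algebraMap k K u⁻¹ * star c := by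
      rw [map_inv₀, ← hu]
      have : star c ≠ 0 := star_ne_zero.mpr hc0
      field_simp
    rw [e]
    exact ki_mul hν hv (ki_of (by rw [map_inv₀, hu1, inv_one])) (ki_star hS hκ hcI)
  -- the quotient polynomial
  obtain ⟨m₀, hm₀⟩ := H167.Lf.exists_lift (R := KRG hν v hv) hmc
  obtain ⟨q₀, hq₀⟩ : ∃ q₀ : (KRG hν v hv)[X],
      q₀ = m₀ /ₘ (X - C ⟨-algebraMap k K μ, hneg⟩) := ⟨_, rfl⟩
  have hq : q₀.map (KRG hν v hv).subtype = m /ₘ (X - C (-algebraMap k K μ)) := by
    rw [hq₀, Polynomial.map_divByMonic _ (Polynomial.monic_X_sub_C _), hm₀]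
    simp
  have hdiv : m = (X - C (-algebraMap k K μ)) * (m /ₘ (X - C (-algebraMap k K μ))) + C c := by
    conv_lhs => rw [← Polynomial.modByMonic_add_div m (X - C (-algebraMap k K μ)),
      Polynomial.modByMonic_X_sub_C_eq_C_eval]
    rw [hcd]
    ring
  have hQ : Ig B v.abv (aeval a (m /ₘ (X - C (-algebraMap k K μ)))) := by
    rw [← hq]
    exact ig_aevalG hB hsI ha q₀
  have hval : (a + algebraMap k D μ) * aeval a (m /ₘ (X - C (-algebraMap k K μ))) =
      -algebraMap K D c := by
    have e := congrArg (Polynomial.aeval a) hdiv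
    rw [hroot, map_add, map_mul, map_sub, Polynomial.aeval_X, Polynomial.aeval_C,
      Polynomial.aeval_C, map_neg, sub_neg_eq_add, ← IsScalarTower.algebraMap_apply] at e
    exact eq_neg_of_add_eq_zero_left e.symm
  have hinv : (a + algebraMap k D μ)⁻¹ =
      -(aeval a (m /ₘ (X - C (-algebraMap k K μ))) * algebraMap K D c⁻¹) := by
    rw [eq_comm]
    apply eq_inv_of_mul_eq_one_right
    rw [mul_neg, ← mul_assoc, hval, neg_mul, neg_neg, ← map_mul, mul_inv_cancel₀ hc0, map_one]
  rw [hinv]
  exact Gd.neg (hB.mul' hQ (H167.Lf.ig_of_ki hB hsI hcinv))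

variable [GFF k]

/-- Almost all places are good for an element of `K`. -/
theorem finite_not_kiG (hS : SetG k K D) (hκ : star κ = κ + 1) (e : K) :
    {v : Place k | ¬ KI v κ e}.Finite := by
  obtain ⟨a, b, rfl⟩ := hS.exists_coord (κ := κ) (by rw [hκ]; simp) e
  refine ((finite_big a).union (finite_big b)).subset fun v hv => ?_
  simp only [Set.mem_union, Set.mem_ofPred_eq]
  by_contra hcon
  push Not at hcon
  exact hv ⟨a, b, rfl, hcon.1, hcon.2⟩

theorem finite_not_polyG (hS : SetG k K D) (hκ : star κ = κ + 1) (p : K[X]) :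
    {v : Place k | ¬ ∀ i, KI v κ (p.coeff i)}.Finite := by
  have h1 : (⋃ i ∈ (p.support : Set ℕ), {v : Place k | ¬ KI v κ (p.coeff i)}).Finite :=
    (Finset.finite_toSet _).biUnion fun i _ => finite_not_kiG hS hκ _
  refine h1.subset fun v hv => ?_
  by_contra hc
  apply hv
  intro i
  by_cases hi : i ∈ p.support
  · by_contra hcon
    exact hc (Set.mem_biUnion (x := i) hi hcon)
  · rw [Polynomial.notMem_support_iff.mp hi]
    exact ⟨0, 0, by simp, by rw [map_zero]; exact zero_le_one,
      by rw [map_zero]; exact zero_le_one⟩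

/-- finitely many bad places -/
theorem exists_fin_badG (B : Basis (Fin N) k D) (ν : k) (L : Set D)
    (hL : L.Finite) : ∃ S : Set (Place k), S.Finite ∧ ∀ v ∉ S,
      v.abv ν ≤ 1 ∧ Gd B v.abv ∧ ∀ x ∈ L, Ig B v.abv x := by
  refine ⟨{v | ¬ v.abv ν ≤ 1} ∪ ({v | ¬ Gd B v.abv} ∪ ⋃ x ∈ L, {v | ¬ Ig B v.abv x}),
    (finite_big ν).union ((finite_bad B).union
      (hL.biUnion fun x _ => H167.Lf.finite_not_ig B x)), fun v hv => ?_⟩
  simp only [Set.mem_union, not_or, Set.mem_iUnion, Set.mem_ofPred_eq, not_exists, not_not] at hv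
  exact ⟨hv.1, hv.2.1, fun x hx => hv.2.2 x hx⟩

end base

section period

variable {K D : Type} [Field K] [StarRing K] [DivisionRing D] [Algebra K D]
  [FiniteDimensional K D]

/-- The minimal polynomial is coprime to its conjugate after adding a suitable multiple of an
element which is not fixed. -/
theorem exists_shiftG {κ : K} (hκ : star κ ≠ κ) (a : D)
    {Δ : Set K} (hΔ : Δ.Infinite) (hΔs : ∀ δ ∈ Δ, star δ = δ) : ∃ c ∈ Δ,
      minpoly K (a + algebraMap K D (c * κ)) ≠
        (minpoly K (a + algebraMap K D (c * κ))).map (starRingEnd K) := by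
  by_contra hcon
  push Not at hcon
  obtain ⟨m, hm⟩ : ∃ m : K[X], m = minpoly K a := ⟨_, rfl⟩
  have hκ' : star κ - κ ≠ 0 := sub_ne_zero.mpr hκ
  -- the polynomial is constant
  have h3 : ∀ δ ∈ Δ, m.eval (δ * (star κ - κ)) = (m.map (starRingEnd K)).eval 0 := by
    intro δ hδ
    have h4 := hcon δ hδ
    rw [H167.Lf.minpoly_add, ← hm] at h4
    have h5 := congrArg (Polynomial.eval (δ * star κ)) h4
    have h6 : (m.comp (X - C (δ * κ))).eval (δ * star κ) = m.eval (δ * (star κ - κ)) := by
      rw [Polynomial.eval_comp]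
      congr 1
      simp only [Polynomial.eval_sub, Polynomial.eval_X, Polynomial.eval_C]
      ring
    have h7 : ((m.comp (X - C (δ * κ))).map (starRingEnd K)).eval (δ * star κ) =
        (m.map (starRingEnd K)).eval 0 := by
      rw [Polynomial.map_comp, Polynomial.eval_comp]
      congr 1
      have h8 : (starRingEnd K) (δ * κ) = δ * star κ := by
        change star (δ * κ) = _
        rw [star_mul', hΔs δ hδ]
      rw [Polynomial.map_sub, Polynomial.map_X, Polynomial.map_C, h8]
      simp only [Polynomial.eval_sub, Polynomial.eval_X, Polynomial.eval_C, sub_self]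
    rw [h6, h7] at h5
    exact h5
  have h4 : m - C ((m.map (starRingEnd K)).eval 0) = 0 := by
    apply Polynomial.eq_zero_of_infinite_isRoot
    refine Set.Infinite.mono (s := (fun δ => δ * (star κ - κ)) '' Δ) ?_ ?_
    · rintro _ ⟨δ, hδ, rfl⟩
      change Polynomial.IsRoot _ _
      rw [Polynomial.IsRoot, Polynomial.eval_sub, Polynomial.eval_C, h3 δ hδ, sub_self]
    · refine hΔ.image ?_
      intro x _ y _ hxy
      exact mul_right_cancel₀ hκ' hxy
  have h5 : m.natDegree = 0 := by
    rw [sub_eq_zero.mp h4, Polynomial.natDegree_C]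
  have h6 := minpoly.natDegree_pos (IsIntegral.of_finite K a)
  rw [← hm] at h6
  omega

end period

section glob

variable {k K D : Type} [Field k] [GFF k] [Field K] [StarRing K]
    [DivisionRing D] [StarRing D] [Algebra k K] [Algebra k D] [Algebra K D] [IsScalarTower k K D]
    {κ : K} {ν : k} {N : ℕ}

/-- **The global element.** -/
theorem exists_globalG (hS : SetG k K D) (h2 : (2 : k) = 0) (hκ : star κ = κ + 1)
    (hν : κ * κ + κ = algebraMap k K ν) (B : Basis (Fin N) k D)
    (L : Set D) (hL : L.Finite) (tv : Place k → D) (δv : Place k → ℝ) (hδv : ∀ p, 0 < δv p) :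
    ∃ t : D, t ≠ 0 ∧ ∃ S : Set (Place k), S.Finite ∧
      (∀ v ∈ S, na B v.abv (t - tv v) < δv v) ∧
      (∀ v ∉ S, v.abv ν ≤ 1 ∧ Gd B v.abv ∧ (∀ x ∈ L, Ig B v.abv x) ∧
        (¬ Spl2 v ν → ∃ l : k, l ≠ 0 ∧ Ig B v.abv (l⁻¹ • t) ∧ Ig B v.abv (l • t⁻¹))) := by
  classical
  obtain ⟨Sg, hSg⟩ : ∃ S : D, S = algebraMap K D κ := ⟨_, rfl⟩
  have hLL : (L ∪ {Sg}).Finite := hL.union (by simp)
  obtain ⟨S, hSf, hSgood⟩ := exists_fin_badG B ν (L ∪ {Sg}) hLL
  have _ := hS.fin
  have hκne : star κ ≠ κ := by rw [hκ]; simp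
  -- the approximation in `D`
  obtain ⟨τ, hτ⟩ := H167.Lf.approxD B hSf tv (δ := fun p => δv p / 3)
    (fun p => by have := hδv p; positivity)
  -- the shift
  have hC0 : ∀ p : Place k, 0 < na B p.abv Sg + 1 := fun p => by
    have := na_nonneg B p.abv Sg
    linarith
  have hΔ := H167.Lf.infinite_small hSf (δ := fun p => δv p / 3 / (na B p.abv Sg + 1))
    fun p => div_pos (by have := hδv p; positivity) (hC0 p)
  obtain ⟨c, ⟨δ, ⟨-, hδ⟩, rfl⟩, hmin⟩ := exists_shiftG hκne τ
    (hΔ.image ((algebraMap k K).injective.injOn)) (by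
      rintro _ ⟨δ, -, rfl⟩
      exact hS.star_algebraMap δ)
  obtain ⟨s0, hs0d⟩ : ∃ s0 : D, s0 = τ + algebraMap K D (algebraMap k K δ * κ) := ⟨_, rfl⟩
  rw [← hs0d] at hmin
  have hts0 : s0 = τ + δ • Sg := by
    rw [hs0d, map_mul, ← hSg, ← IsScalarTower.algebraMap_apply, Algebra.smul_def]
  obtain ⟨A, A', hrel⟩ := H167.Lf.coprime_conj hmin
  -- the second finite set
  obtain ⟨T, hTf, hT⟩ : ∃ T : Set (Place k), T.Finite ∧ ∀ v ∉ T,
      Ig B v.abv s0 ∧ ∀ q ∈ ({minpoly K s0, A, A'} : Set K[X]), ∀ i, KI v κ (q.coeff i) := by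
    have h1 : (⋃ q ∈ ({minpoly K s0, A, A'} : Set K[X]), {v : Place k |
        ¬ ∀ i, KI v κ (q.coeff i)}).Finite :=
      (by simp : ({minpoly K s0, A, A'} : Set K[X]).Finite).biUnion
        fun q _ => finite_not_polyG hS hκ q
    refine ⟨_, (H167.Lf.finite_not_ig B s0).union h1, fun v hv => ?_⟩
    rw [Set.mem_union, not_or] at hv
    refine ⟨not_not.mp hv.1, fun q hq => ?_⟩
    by_contra hcon
    exact hv.2 (Set.mem_biUnion hq hcon)
  -- the scalar
  have hQ : (S ∪ T).Finite := hSf.union hTf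
  choose b hb using fun p : Place k => H167.Lf.exists_abv_gt p (na B p.abv s0 + 1)
  obtain ⟨μ, hμ⟩ := H167.Lf.approx hQ (fun p => if p ∈ S then 0 else b p)
    (δ := fun p => if p ∈ S then δv p / 3 / (na B p.abv (1 : D) + 1) else 1)
    (fun p => by
      have h1 := hδv p
      have h2 := na_nonneg B p.abv (1 : D)
      split_ifs
      · positivity
      · exact one_pos)
  have hμS : ∀ v ∈ S, v.abv μ * na B v.abv (1 : D) < δv v / 3 := by
    intro v hv
    have h1 := hμ v (Or.inl hv)
    rw [if_pos hv, if_pos hv, sub_zero] at h1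
    have h2 := na_nonneg B v.abv (1 : D)
    have h3 : 0 < na B v.abv (1 : D) + 1 := by linarith
    have h4 : v.abv μ * (na B v.abv (1 : D) + 1) < δv v / 3 := (lt_div_iff₀ h3).mp h1
    have h5 := v.abv.nonneg μ
    nlinarith
  have hμM : ∀ p ∈ T, p ∉ S → na B p.abv s0 < p.abv μ := by
    intro p hp hpS
    have h1 := hμ p (Or.inr hp)
    rw [if_neg hpS, if_neg hpS] at h1
    have h2 : p.abv (b p) ≤ p.abv μ + p.abv (μ - b p) := by
      have := p.abv.add_le μ (-(μ - b p))
      rw [AbsoluteValue.map_neg] at this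
      have e : μ + -(μ - b p) = b p := by ring
      rwa [e] at this
    have h3 := hb p
    linarith
  -- the element
  have hs0μ : s0 + algebraMap k D μ ≠ 0 := by
    intro h
    have h1 : s0 = algebraMap K D (-algebraMap k K μ) := by
      rw [map_neg, ← IsScalarTower.algebraMap_apply]
      exact eq_neg_of_add_eq_zero_left h
    have h2 : (minpoly K s0).eval (-algebraMap k K μ) = 0 := by
      have h3 := minpoly.aeval K s0
      conv_lhs at h3 => rw [h1, Polynomial.aeval_algebraMap_apply, Polynomial.aeval_def]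
      rw [map_eq_zero, Algebra.algebraMap_self] at h3
      rw [← h1] at h3
      exact h3
    have h4 : ((minpoly K s0).map (starRingEnd K)).eval (-algebraMap k K μ) = 0 := by
      have e : (-algebraMap k K μ) = starRingEnd K (-algebraMap k K μ) := by
        rw [map_neg]
        congr 1
        exact (hS.star_algebraMap μ).symm
      conv_lhs => rw [e]
      rw [Polynomial.eval_map_apply, h2, map_zero]
    have h5 := congrArg (Polynomial.eval (-algebraMap k K μ)) hrel
    rw [Polynomial.eval_add, Polynomial.eval_mul, Polynomial.eval_mul, h2, h4, mul_zero, mul_zero,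
      add_zero, Polynomial.eval_one] at h5
    exact zero_ne_one h5
  obtain ⟨t, htd⟩ : ∃ t : D, t = s0 + algebraMap k D μ := ⟨_, rfl⟩
  have ht0 : t ≠ 0 := htd ▸ hs0μ
  have ht' : t = s0 + μ • (1 : D) := by
    rw [htd, Algebra.algebraMap_eq_smul_one]
  refine ⟨t, ht0, S, hSf, ?_, ?_⟩
  · intro v hv
    have e : t - tv v = (τ - tv v) + δ • Sg + μ • (1 : D) := by
      rw [ht', hts0]
      abel
    rw [e]
    have h1 := hτ v hv
    have h2 := hδ v hv
    have h3 := hμS v hv
    rw [lt_div_iff₀ (hC0 v)] at h2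
    have h4 : v.abv δ * na B v.abv Sg ≤ v.abv δ * (na B v.abv Sg + 1) :=
      mul_le_mul_of_nonneg_left (by linarith) (v.abv.nonneg _)
    calc na B v.abv ((τ - tv v) + δ • Sg + μ • (1 : D))
        ≤ na B v.abv ((τ - tv v) + δ • Sg) + na B v.abv (μ • (1 : D)) := na_add_le _ _ _ _
      _ ≤ na B v.abv (τ - tv v) + na B v.abv (δ • Sg) +
          na B v.abv (μ • (1 : D)) := add_le_add (na_add_le _ _ _ _) le_rfl
      _ < δv v := by rw [na_smul, na_smul]; linarith
  · intro v hv
    obtain ⟨hd, hB, hall⟩ := hSgood v hv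
    refine ⟨hd, hB, fun x hx => hall x (Or.inl hx), fun hns => ?_⟩
    have hIS : Ig B v.abv (algebraMap K D κ) := by rw [← hSg]; exact hall _ (Or.inr (by simp))
    by_cases hcase : μ ≠ 0 ∧ ∀ l, v.abv (B.repr (μ⁻¹ • s0) l) < 1
    · obtain ⟨hμ0, hcase⟩ := hcase
      have e : μ⁻¹ • t = 1 + μ⁻¹ • s0 := by
        rw [ht', smul_add, smul_smul, inv_mul_cancel₀ hμ0, one_smul, add_comm]
      refine ⟨μ, hμ0, ?_, ?_⟩
      · rw [e]
        exact Gd.add hB.na hB.one fun l => (hcase l).le
      · have e' : μ • t⁻¹ = (1 + μ⁻¹ • s0)⁻¹ := by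
          rw [← e, Algebra.smul_def, Algebra.smul_def, mul_inv_rev, ← map_inv₀,
            inv_inv, Algebra.commutes]
        rw [e']
        exact H167.Lf.ig_inv_one_add hB hcase
    · have hvT : v ∉ T := by
        intro hvT
        have h1 := hμM v hvT hv
        have h4 := na_nonneg B v.abv s0
        have hμ0 : μ ≠ 0 := by
          rintro rfl
          rw [map_zero] at h1
          linarith
        refine hcase ⟨hμ0, fun l => ?_⟩
        have h5 : v.abv (B.repr s0 l) < v.abv μ := (coord_le_na B v.abv s0 l).trans_lt h1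
        rw [map_smul, Finsupp.smul_apply, smul_eq_mul, map_mul, map_inv₀]
        have hvμ : 0 < v.abv μ := v.abv.pos hμ0
        rw [mul_comm, ← div_eq_mul_inv]
        exact (div_lt_one₀ hvμ).mpr h5
      obtain ⟨hIs0, hpol⟩ := hT v hvT
      have hvμ1 : v.abv μ ≤ 1 := by
        by_contra hlt
        rw [not_le] at hlt
        have hμ0 : μ ≠ 0 := by
          rintro rfl
          rw [map_zero] at hlt
          linarith
        refine hcase ⟨hμ0, fun l => ?_⟩
        rw [map_smul, Finsupp.smul_apply, smul_eq_mul, map_mul, map_inv₀]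
        exact mul_lt_one_of_nonneg_of_lt_one_left (inv_nonneg.mpr (v.abv.nonneg _))
          (inv_lt_one_of_one_lt₀ hlt) (hIs0 l)
      refine ⟨1, one_ne_zero, ?_, ?_⟩
      · rw [inv_one, one_smul, ht']
        exact Gd.add hB.na hIs0 (Gd.smul hvμ1 hB.one)
      · rw [one_smul, htd]
        exact inv_integralG hS h2 hκ hν hd hns hB hIS hIs0 (minpoly.aeval K s0) hrel
          (hpol _ (by simp)) (hpol _ (by simp)) (hpol _ (by simp)) hvμ1

end glob

end Vale.Agent.P011.H6.L2
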